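import Mathlib
import Vale.Agent.Lib.P137.Defs

/-!
# P137 pool piece F (second copy, helper56): the weighted integral of a radial profile is at most
its radial variation

Route: finite geometric partitions, Abel summation for finite sums, and three limits; no infinite
series.
-/

open MeasureTheory

namespace Vale.Agent.Lib.P137.H56

/-- One piece: on the interval from u to v the profile is at most F u, and the power integrates exactly. -/
theorem jF_piece_le {d : ℕ} (hd : 2 ≤ d) (F : ℝ → ℝ) (hF : Antitone F)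
    (u v : ℝ) (hu : 0 ≤ u) (huv : u ≤ v) :
    ((d - 1 : ℕ) : ENNReal) *
        ∫⁻ t in Set.Ioc u v, ENNReal.ofReal (t ^ (d - 2)) * ENNReal.ofReal (F t)
      ≤ ENNReal.ofReal (F u * (v ^ (d - 1) - u ^ (d - 1))) := by
  have h1 : ∫⁻ t in Set.Ioc u v, ENNReal.ofReal (t ^ (d - 2)) * ENNReal.ofReal (F t)
      ≤ ∫⁻ t in Set.Ioc u v, ENNReal.ofReal (t ^ (d - 2)) * ENNReal.ofReal (F u) := by
    apply setLIntegral_mono' measurableSet_Ioc
    intro t ht
    gcongr
    exact hF ht.1.le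
  have h2 : ∫⁻ t in Set.Ioc u v, ENNReal.ofReal (t ^ (d - 2)) * ENNReal.ofReal (F u)
      = (∫⁻ t in Set.Ioc u v, ENNReal.ofReal (t ^ (d - 2))) * ENNReal.ofReal (F u) := by
    rw [lintegral_mul_const' _ _ ENNReal.ofReal_ne_top]
  have e : d - 2 + 1 = d - 1 := by omega
  have hk : (0 : ℝ) < ((d - 1 : ℕ) : ℝ) := by
    have : 0 < d - 1 := by omega
    exact_mod_cast this
  have h3 : ∫⁻ t in Set.Ioc u v, ENNReal.ofReal (t ^ (d - 2))
      = ENNReal.ofReal ((v ^ (d - 1) - u ^ (d - 1)) / ((d - 1 : ℕ) : ℝ)) := by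
    rw [← ofReal_integral_eq_lintegral_ofReal]
    · congr 1
      rw [← intervalIntegral.integral_of_le huv, integral_pow, e]
      congr 1
      rw [← e]
      push_cast
      ring
    · exact (continuous_pow (d - 2)).integrableOn_Ioc
    · refine (ae_restrict_iff' measurableSet_Ioc).2 (Filter.Eventually.of_forall fun t ht => ?_)
      exact pow_nonneg (hu.trans ht.1.le) _
  have hX : 0 ≤ v ^ (d - 1) - u ^ (d - 1) := sub_nonneg.2 (pow_le_pow_left₀ hu huv _)
  calc ((d - 1 : ℕ) : ENNReal) *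
        ∫⁻ t in Set.Ioc u v, ENNReal.ofReal (t ^ (d - 2)) * ENNReal.ofReal (F t)
      ≤ ((d - 1 : ℕ) : ENNReal) *
        (ENNReal.ofReal ((v ^ (d - 1) - u ^ (d - 1)) / ((d - 1 : ℕ) : ℝ)) * ENNReal.ofReal (F u)) := by
        rw [← h3, ← h2]
        gcongr
    _ = ENNReal.ofReal (F u * (v ^ (d - 1) - u ^ (d - 1))) := by
        rw [← ENNReal.ofReal_natCast, ← ENNReal.ofReal_mul (div_nonneg hX hk.le),
          ← ENNReal.ofReal_mul hk.le]
        congr 1
        field_simp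

/-- Abel summation for finite sums. -/
theorem jF_abel (c f : ℕ → ℝ) (n : ℕ) :
    ∑ j ∈ Finset.range n, f j * (c (j + 1) - c j)
      = ∑ j ∈ Finset.range n, c (j + 1) * (f j - f (j + 1)) + c n * f n - c 0 * f 0 := by
  induction n with
  | zero => simp
  | succ n ih => rw [Finset.sum_range_succ, Finset.sum_range_succ, ih]; ring

/-- The tail of the lower sums dominates the telescoped remainder. -/
theorem jF_tail (c f : ℕ → ℝ) (hc : Monotone c) (hf : Antitone f) (n N : ℕ) (hnN : n ≤ N) :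
    ∑ j ∈ Finset.range n, c j * (f j - f (j + 1)) + c n * (f n - f N)
      ≤ ∑ j ∈ Finset.range N, c j * (f j - f (j + 1)) := by
  induction N, hnN using Nat.le_induction with
  | base => simp
  | succ N hN ih =>
    rw [Finset.sum_range_succ]
    have h1 : c n ≤ c N := hc hN
    have h2 : 0 ≤ f N - f (N + 1) := sub_nonneg.2 (hf (Nat.le_succ N))
    have h3 := mul_le_mul_of_nonneg_right h1 h2
    linarith

/-- The real inequality behind the geometric partition. -/
theorem jF_real_main (c f : ℕ → ℝ) (Q : ℝ) (hQ : 1 ≤ Q) (hcQ : ∀ j, c (j + 1) = Q * c j)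
    (hc0 : ∀ j, 0 ≤ c j) (hf : Antitone f) (hf0 : ∀ j, 0 ≤ f j) (n N : ℕ) (hnN : n ≤ N) :
    ∑ j ∈ Finset.range n, f j * (c (j + 1) - c j)
      ≤ Q * ∑ j ∈ Finset.range N, c j * (f j - f (j + 1)) + c n * f N := by
  have hcm : Monotone c := monotone_nat_of_le_succ (fun j => by
    rw [hcQ]; nlinarith [hc0 j])
  have h1 := jF_abel c f n
  have h2 := jF_tail c f hcm hf n N hnN
  have h3 : ∑ j ∈ Finset.range n, c (j + 1) * (f j - f (j + 1))
      = Q * ∑ j ∈ Finset.range n, c j * (f j - f (j + 1)) := by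
    rw [Finset.mul_sum]
    refine Finset.sum_congr rfl fun j _ => ?_
    rw [hcQ]; ring
  have h4 : 0 ≤ c n * (f n - f N) := mul_nonneg (hc0 n) (sub_nonneg.2 (hf hnN))
  have h5 : 0 ≤ c 0 * f 0 := mul_nonneg (hc0 0) (hf0 0)
  have h6 := mul_le_mul_of_nonneg_left h2 (by linarith : (0 : ℝ) ≤ Q)
  have h7 := mul_le_mul_of_nonneg_right hQ h4
  rw [h1, h3]
  linarith

/-- Summing the pieces of a monotone partition. -/
theorem jF_union_le {d : ℕ} (hd : 2 ≤ d) (F : ℝ → ℝ) (hF : Antitone F) (hF0 : ∀ t, 0 ≤ F t)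
    (ρ : ℕ → ℝ) (hρ0 : 0 ≤ ρ 0) (hρ : Monotone ρ) (n : ℕ) :
    ((d - 1 : ℕ) : ENNReal) *
        ∫⁻ t in Set.Ioc (ρ 0) (ρ n), ENNReal.ofReal (t ^ (d - 2)) * ENNReal.ofReal (F t)
      ≤ ENNReal.ofReal
          (∑ j ∈ Finset.range n, F (ρ j) * (ρ (j + 1) ^ (d - 1) - ρ j ^ (d - 1))) := by
  have hterm : ∀ j, 0 ≤ F (ρ j) * (ρ (j + 1) ^ (d - 1) - ρ j ^ (d - 1)) := fun j =>
    mul_nonneg (hF0 _) (sub_nonneg.2
      (pow_le_pow_left₀ (hρ0.trans (hρ (Nat.zero_le j))) (hρ (Nat.le_succ j)) _))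
  induction n with
  | zero => simp
  | succ n ih =>
    rw [Finset.sum_range_succ,
      ENNReal.ofReal_add (Finset.sum_nonneg fun j _ => hterm j) (hterm n)]
    have hU : Set.Ioc (ρ 0) (ρ (n + 1)) = Set.Ioc (ρ 0) (ρ n) ∪ Set.Ioc (ρ n) (ρ (n + 1)) :=
      (Set.Ioc_union_Ioc_eq_Ioc (hρ (Nat.zero_le n)) (hρ (Nat.le_succ n))).symm
    rw [hU]
    calc ((d - 1 : ℕ) : ENNReal) * ∫⁻ t in Set.Ioc (ρ 0) (ρ n) ∪ Set.Ioc (ρ n) (ρ (n + 1)),
          ENNReal.ofReal (t ^ (d - 2)) * ENNReal.ofReal (F t)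
        ≤ ((d - 1 : ℕ) : ENNReal) *
          ((∫⁻ t in Set.Ioc (ρ 0) (ρ n), ENNReal.ofReal (t ^ (d - 2)) * ENNReal.ofReal (F t)) +
            ∫⁻ t in Set.Ioc (ρ n) (ρ (n + 1)),
              ENNReal.ofReal (t ^ (d - 2)) * ENNReal.ofReal (F t)) := by
          gcongr
          exact lintegral_union_le _ _ _
      _ = _ := mul_add _ _ _
      _ ≤ _ := add_le_add ih
          (jF_piece_le hd F hF _ _ (hρ0.trans (hρ (Nat.zero_le n))) (hρ (Nat.le_succ n)))

/-- Every lower sum of a strictly increasing positive sequence is at most the radial variation. -/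
theorem jF_sum_le_radialVar {d : ℕ} (F : ℝ → ℝ) (hF : Antitone F) (hF0 : ∀ t, 0 ≤ F t)
    (ρ : ℕ → ℝ) (hρ : StrictMono ρ) (hρ0 : 0 < ρ 0) (N : ℕ) :
    ENNReal.ofReal (∑ j ∈ Finset.range N, ρ j ^ (d - 1) * (F (ρ j) - F (ρ (j + 1))))
      ≤ radialVar d (fun ρ => ENNReal.ofReal (F ρ)) := by
  have hpos : ∀ j, 0 ≤ ρ j := fun j => hρ0.le.trans (hρ.monotone (Nat.zero_le j))
  unfold radialVar
  refine le_iSup_of_le N (le_iSup_of_le (fun j : Fin (N + 1) => ρ j.val)
    (le_iSup_of_le ⟨fun i j hij => hρ hij, hρ0⟩ (le_of_eq ?_)))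
  rw [ENNReal.ofReal_sum_of_nonneg (fun j _ => mul_nonneg (pow_nonneg (hpos j) _)
    (sub_nonneg.2 (hF (hρ.monotone (Nat.le_succ j)))))]
  rw [← Fin.sum_univ_eq_sum_range
    (fun j => ENNReal.ofReal (ρ j ^ (d - 1) * (F (ρ j) - F (ρ (j + 1))))) N]
  refine Finset.sum_congr rfl fun j _ => ?_
  simp only [Fin.val_castSucc, Fin.val_succ]
  rw [ENNReal.ofReal_mul (pow_nonneg (hpos _) _), ENNReal.ofReal_sub _ (hF0 _)]

/-- Pool piece F: the weighted integral of a nonincreasing profile tending to zero is at most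
its radial variation. -/
theorem integral_le_radialVar {d : ℕ} (hd : 2 ≤ d) (F : ℝ → ℝ) (hF : Antitone F)
    (hF0 : ∀ t, 0 ≤ F t) (hlim : Filter.Tendsto F Filter.atTop (nhds 0)) :
    ((d - 1 : ℕ) : ENNReal) *
        ∫⁻ ρ in Set.Ioi (0 : ℝ), ENNReal.ofReal (ρ ^ (d - 2)) * ENNReal.ofReal (F ρ)
      ≤ radialVar d (fun ρ => ENNReal.ofReal (F ρ)) := by
  set R := radialVar d (fun ρ => ENNReal.ofReal (F ρ)) with hR
  -- Step 1: a finite geometric partition
  have step1 : ∀ (a q : ℝ), 0 < a → 1 < q → ∀ n N : ℕ, n ≤ N →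
      ((d - 1 : ℕ) : ENNReal) *
          ∫⁻ t in Set.Ioc a (a * q ^ n), ENNReal.ofReal (t ^ (d - 2)) * ENNReal.ofReal (F t)
        ≤ ENNReal.ofReal (q ^ (d - 1)) * R +
          ENNReal.ofReal ((a * q ^ n) ^ (d - 1) * F (a * q ^ N)) := by
    intro a q ha hq n N hnN
    have hq0 : 0 < q := by linarith
    have hρs : StrictMono (fun j : ℕ => a * q ^ j) := fun i j hij =>
      mul_lt_mul_of_pos_left (pow_lt_pow_right₀ hq hij) ha
    have hρ0 : (0 : ℝ) < a * q ^ 0 := by simpa using ha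
    have hpos : ∀ j : ℕ, 0 ≤ a * q ^ j := fun j => by positivity
    have h1 := jF_union_le hd F hF hF0 (fun j : ℕ => a * q ^ j) hρ0.le hρs.monotone n
    have h2 := jF_real_main (fun j : ℕ => (a * q ^ j) ^ (d - 1)) (fun j : ℕ => F (a * q ^ j))
      (q ^ (d - 1)) (one_le_pow₀ hq.le)
      (fun j => by rw [pow_succ]; ring) (fun j => pow_nonneg (hpos j) _)
      (fun i j hij => hF (hρs.monotone hij)) (fun j => hF0 _) n N hnN
    have h3 := jF_sum_le_radialVar (d := d) F hF hF0 (fun j : ℕ => a * q ^ j) hρs hρ0 N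
    have hsum : 0 ≤ ∑ j ∈ Finset.range N,
        (a * q ^ j) ^ (d - 1) * (F (a * q ^ j) - F (a * q ^ (j + 1))) :=
      Finset.sum_nonneg fun j _ => mul_nonneg (pow_nonneg (hpos j) _)
        (sub_nonneg.2 (hF (hρs.monotone (Nat.le_succ j))))
    simp only [pow_zero, mul_one] at h1
    calc ((d - 1 : ℕ) : ENNReal) *
          ∫⁻ t in Set.Ioc a (a * q ^ n), ENNReal.ofReal (t ^ (d - 2)) * ENNReal.ofReal (F t)
        ≤ ENNReal.ofReal (∑ j ∈ Finset.range n,
            F (a * q ^ j) * ((a * q ^ (j + 1)) ^ (d - 1) - (a * q ^ j) ^ (d - 1))) := h1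
      _ ≤ ENNReal.ofReal (q ^ (d - 1) * ∑ j ∈ Finset.range N,
            (a * q ^ j) ^ (d - 1) * (F (a * q ^ j) - F (a * q ^ (j + 1))) +
            (a * q ^ n) ^ (d - 1) * F (a * q ^ N)) := ENNReal.ofReal_le_ofReal h2
      _ = ENNReal.ofReal (q ^ (d - 1)) * ENNReal.ofReal (∑ j ∈ Finset.range N,
            (a * q ^ j) ^ (d - 1) * (F (a * q ^ j) - F (a * q ^ (j + 1)))) +
            ENNReal.ofReal ((a * q ^ n) ^ (d - 1) * F (a * q ^ N)) := by
          rw [ENNReal.ofReal_add (mul_nonneg (pow_nonneg hq0.le _) hsum)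
            (mul_nonneg (pow_nonneg (hpos n) _) (hF0 _)),
            ENNReal.ofReal_mul (pow_nonneg hq0.le _)]
      _ ≤ _ := by gcongr
  -- Step 2: the remainder tends to zero
  have step2 : ∀ (a q : ℝ), 0 < a → 1 < q → ∀ n : ℕ,
      ((d - 1 : ℕ) : ENNReal) *
          ∫⁻ t in Set.Ioc a (a * q ^ n), ENNReal.ofReal (t ^ (d - 2)) * ENNReal.ofReal (F t)
        ≤ ENNReal.ofReal (q ^ (d - 1)) * R := by
    intro a q ha hq n
    have hT : Filter.Tendsto (fun N : ℕ => ENNReal.ofReal (q ^ (d - 1)) * R +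
        ENNReal.ofReal ((a * q ^ n) ^ (d - 1) * F (a * q ^ N))) Filter.atTop
        (nhds (ENNReal.ofReal (q ^ (d - 1)) * R + 0)) := by
      refine tendsto_const_nhds.add ?_
      rw [← ENNReal.ofReal_zero]
      refine ENNReal.tendsto_ofReal ?_
      have hinf : Filter.Tendsto (fun N : ℕ => a * q ^ N) Filter.atTop Filter.atTop :=
        Filter.Tendsto.const_mul_atTop ha (tendsto_pow_atTop_atTop_of_one_lt hq)
      have h := (hlim.comp hinf).const_mul ((a * q ^ n) ^ (d - 1))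
      simpa using h
    rw [add_zero] at hT
    exact ge_of_tendsto hT
      (Filter.eventually_atTop.2 ⟨n, fun N hN => step1 a q ha hq n N hN⟩)
  -- Step 3: exhaust the half-line from a
  have step3 : ∀ (a q : ℝ), 0 < a → 1 < q →
      ((d - 1 : ℕ) : ENNReal) *
          ∫⁻ t in Set.Ioi a, ENNReal.ofReal (t ^ (d - 2)) * ENNReal.ofReal (F t)
        ≤ ENNReal.ofReal (q ^ (d - 1)) * R := by
    intro a q ha hq
    have hU : Set.Ioi a = ⋃ n : ℕ, Set.Ioc a (a * q ^ n) := by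
      ext t
      simp only [Set.mem_Ioi, Set.mem_iUnion, Set.mem_Ioc]
      constructor
      · intro ht
        obtain ⟨n, hn⟩ := pow_unbounded_of_one_lt (t / a) hq
        refine ⟨n, ht, ?_⟩
        rw [div_lt_iff₀ ha] at hn
        linarith
      · rintro ⟨n, h1, _⟩
        exact h1
    have hdir : Directed (· ⊆ ·) (fun n : ℕ => Set.Ioc a (a * q ^ n)) := by
      refine Monotone.directed_le (monotone_nat_of_le_succ fun n => ?_)
      refine Set.Ioc_subset_Ioc_right ?_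
      exact mul_le_mul_of_nonneg_left (pow_le_pow_right₀ hq.le (Nat.le_succ n)) ha.le
    rw [hU, setLIntegral_iUnion_of_directed _ hdir, ENNReal.mul_iSup]
    exact iSup_le fun n => step2 a q ha hq n
  -- Step 4: let the ratio tend to one
  have step4 : ∀ a : ℝ, 0 < a →
      ((d - 1 : ℕ) : ENNReal) *
          ∫⁻ t in Set.Ioi a, ENNReal.ofReal (t ^ (d - 2)) * ENNReal.ofReal (F t) ≤ R := by
    intro a ha
    have hT : Filter.Tendsto
        (fun m : ℕ => ENNReal.ofReal ((1 + 1 / ((m : ℝ) + 1)) ^ (d - 1)) * R)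
        Filter.atTop (nhds (1 * R)) := by
      refine ENNReal.Tendsto.mul_const ?_ (Or.inl one_ne_zero)
      rw [← ENNReal.ofReal_one]
      refine ENNReal.tendsto_ofReal ?_
      have h0 : Filter.Tendsto (fun m : ℕ => (1 + 1 / ((m : ℝ) + 1))) Filter.atTop
          (nhds (1 + 0)) :=
        tendsto_const_nhds.add tendsto_one_div_add_atTop_nhds_zero_nat
      have h := h0.pow (d - 1)
      simpa using h
    rw [one_mul] at hT
    refine ge_of_tendsto' hT (fun m => step3 a _ ha ?_)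
    have : (0 : ℝ) < 1 / ((m : ℝ) + 1) := by positivity
    linarith
  -- Step 5: exhaust the half-line from zero
  have hU : Set.Ioi (0 : ℝ) = ⋃ m : ℕ, Set.Ioi (1 / ((m : ℝ) + 1)) := by
    ext t
    simp only [Set.mem_Ioi, Set.mem_iUnion]
    constructor
    · intro ht
      obtain ⟨m, hm⟩ := exists_nat_one_div_lt ht
      exact ⟨m, hm⟩
    · rintro ⟨m, hm⟩
      exact lt_trans (by positivity) hm
  have hdir : Directed (· ⊆ ·) (fun m : ℕ => Set.Ioi (1 / ((m : ℝ) + 1))) := by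
    refine Monotone.directed_le (monotone_nat_of_le_succ fun m => ?_)
    refine Set.Ioi_subset_Ioi ?_
    have h1 : (0 : ℝ) < (m : ℝ) + 1 := by positivity
    push_cast
    exact one_div_le_one_div_of_le h1 (by linarith)
  rw [hU, setLIntegral_iUnion_of_directed _ hdir, ENNReal.mul_iSup]
  exact iSup_le fun m => step4 _ (by positivity)

end Vale.Agent.Lib.P137.H56
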